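import Vale.Agent.P256.Lift

namespace Vale.Agent.Results.P256.QuadraticPencil

open Vale.Agent.P256 Matrix

/-- Determinants of quadratic matrix pencils: if finitely many hyperplane charts cover the scalar
forms (in particular, if every scalar form is strictly hyperbolic), then the determinant is
hyperbolic and its hyperbolicity cone is a spectrahedral shadow. -/
theorem result :
    ∀ (n k : ℕ) (B : Fin n → Fin n → Matrix (Fin k) (Fin k) ℝ) (e : Fin n → ℝ),
      (∀ i j, (B i j).IsSymm) → (∀ i j, B j i = B i j) →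
      (∑ i, ∑ j, (e i * e j) • B i j).PosDef →
      ((∃ (r : ℕ) (μ : Fin r → Fin n → ℝ), (∀ l, μ l ⬝ᵥ e = 1) ∧
          ∀ v : Fin k → ℝ, v ≠ 0 → ∃ l, ∀ x, μ l ⬝ᵥ x = 0 → pencilForm B v x x ≤ 0) ∨
        (∀ (v : Fin k → ℝ) (x : Fin n → ℝ), v ≠ 0 → (∀ c : ℝ, x ≠ c • e) →
          pencilForm B v e e * pencilForm B v x x < pencilForm B v e x ^ 2)) →
      IsHyperbolicPoly (pencilPoly B) e ∧
        IsSpectrahedralShadow (hyperbolicityCone (pencilPoly B) e) := by
  intro n k B e hS hB hpd h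
  rcases h with ⟨r, μ, hμ, hcov⟩ | hst
  · exact cone_shadow_of_cover B hS hB hpd μ hμ hcov
  · obtain ⟨r, μ, hμ, hcov⟩ := cover_of_strict B hB hpd hst
    exact cone_shadow_of_cover B hS hB hpd μ hμ hcov

end Vale.Agent.Results.P256.QuadraticPencil
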