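import Vale.Agent.P256.Compose

namespace Vale.Agent.Results.P256.QuadraticSubstitution

open Vale.Agent.P256 Matrix

/-- Hyperbolicity cones that are spectrahedral shadows are closed under quadratic substitution,
and, unconditionally, substituting into a covered determinantal quadratic pencil of degree `2 * k`
gives spectrahedral shadows of degree `4 * k`. -/
theorem result :
    (∀ (m n : ℕ) (F : MvPolynomial (Fin m) ℝ) (a : Fin m → ℝ) (b : Fin n → Fin m → ℝ)
      (C : Fin n → Fin n → Fin m → ℝ),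
      IsHyperbolicPoly F a → IsSpectrahedralShadow (hyperbolicityCone F a) →
      (∀ i j, C j i = C i j) →
      (∀ x : Fin n → ℝ, ∑ i, ∑ j, (x i * x j) • C i j ∈ hyperbolicityCone F a) →
      IsHyperbolicPoly (substPoly F a b C) (firstAxis n) ∧
        IsSpectrahedralShadow (hyperbolicityCone (substPoly F a b C) (firstAxis n))) ∧
    (∀ (m k n r : ℕ) (B : Fin m → Fin m → Matrix (Fin k) (Fin k) ℝ) (a : Fin m → ℝ)
      (μ : Fin r → Fin m → ℝ) (b : Fin n → Fin m → ℝ) (C : Fin n → Fin n → Fin m → ℝ),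
      (∀ i j, (B i j).IsSymm) → (∀ i j, B j i = B i j) →
      (∑ i, ∑ j, (a i * a j) • B i j).PosDef → (∀ l, μ l ⬝ᵥ a = 1) →
      (∀ v : Fin k → ℝ, v ≠ 0 → ∃ l, ∀ x, μ l ⬝ᵥ x = 0 → pencilForm B v x x ≤ 0) →
      (∀ i j, C j i = C i j) →
      (∀ x : Fin n → ℝ,
        ∑ i, ∑ j, (x i * x j) • C i j ∈ hyperbolicityCone (pencilPoly B) a) →
      IsHyperbolicPoly (substPoly (pencilPoly B) a b C) (firstAxis n) ∧
        IsSpectrahedralShadow
          (hyperbolicityCone (substPoly (pencilPoly B) a b C) (firstAxis n))) := by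
  refine ⟨fun m n F a b C hF hsh hC hpos => ?_, fun m k n r B a μ b C hS hB hpd hμ hcov hC hpos => ?_⟩
  · exact ⟨substPoly_hyperbolic hF b C hpos, substPoly_shadow hF hsh b C hC hpos⟩
  · obtain ⟨hF, hsh⟩ := cone_shadow_of_cover B hS hB hpd μ hμ hcov
    exact ⟨substPoly_hyperbolic hF b C hpos, substPoly_shadow hF hsh b C hC hpos⟩

end Vale.Agent.Results.P256.QuadraticSubstitution
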