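import Vale.Agent.P256.Cubic.Normal

namespace Vale.Agent.Results.P256.SingularRaysAndCubics

open Vale.Agent.P256 MvPolynomial

/-- Let `p = ∏ j, q j ∘ L j`, each `q j` hyperbolic with respect to `L j e`, and suppose each
`q j` is either a cubic form in at most five variables (with arbitrary singularities, pointed or
not), or has a pointed cone whose nonzero boundary points are smooth points or singular rays of any
multiplicity with smooth tangent cone off the ray and nonvanishing next-order term there. Then the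
hyperbolicity cone of `p` is a spectrahedral shadow. -/
theorem result (n r : ℕ) (dim : Fin r → ℕ) (e : Fin n → ℝ)
    (L : ∀ j, (Fin n → ℝ) →ₗ[ℝ] (Fin (dim j) → ℝ)) (q : ∀ j, MvPolynomial (Fin (dim j)) ℝ)
    (hq : ∀ j, IsHyperbolicPoly (q j) (L j e))
    (hfactor : ∀ j, ((q j).IsHomogeneous 3 ∧ dim j ≤ 5) ∨
      ((∀ x ∈ hyperbolicityCone (q j) (L j e),
          -x ∈ hyperbolicityCone (q j) (L j e) → x = 0) ∧
        ∀ x ∈ hyperbolicityCone (q j) (L j e), x ≠ 0 → eval x (q j) = 0 →
          (∃ i, eval x (pderiv i (q j)) ≠ 0) ∨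
          ∃ m : ℕ, 2 ≤ m ∧ (∀ k < m, Iso.taylor x (q j) k = 0) ∧
            eval (L j e) (Iso.taylor x (q j) m) ≠ 0 ∧
            ∀ v, v ∉ Submodule.span ℝ {x} →
              v ∈ hyperbolicityCone (Iso.taylor x (q j) m) (L j e) →
                eval v (Iso.taylor x (q j) m) = 0 →
                  (∑ i, L j e i * eval v (pderiv i (Iso.taylor x (q j) m))) ≠ 0 ∧
                    eval v (Iso.taylor x (q j) (m + 1)) ≠ 0)) :
    IsHyperbolicPoly (∏ j, Iso.linPull (L j) (q j)) e ∧
      IsSpectrahedralShadow (hyperbolicityCone (∏ j, Iso.linPull (L j) (q j)) e) :=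
  Iso.product_shadow e L q hq fun j =>
    (hfactor j).elim (fun h => Cubic.cubic_shadow h.2 h.1 (hq j))
      fun h => Iso.cone_shadow (hq j) h.1 h.2

end Vale.Agent.Results.P256.SingularRaysAndCubics
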