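import Vale.Agent.P256.SmoothLift.RationalBound

/-!
Exponential lower bound for semidefinite lifts of hyperbolicity cones of polynomials with rational
coefficients, already for cones all of whose nonzero boundary points are smooth points.
-/

namespace Vale.Agent.Results.P256.SmoothConeLiftLowerBound

open Vale.Agent.P256 Vale.Agent.P256.SmoothLift

lemma two_pow_le_centralBinom (k : ℕ) : 2 ^ k ≤ Nat.centralBinom k := by
  induction k with
  | zero => simp
  | succ k ih =>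
    have h := Nat.succ_mul_centralBinom_succ k
    have h1 : (k + 1) * 2 ^ (k + 1) ≤ (k + 1) * Nat.centralBinom (k + 1) := by
      rw [h, pow_succ]
      nlinarith
    exact Nat.le_of_mul_le_mul_left h1 k.succ_pos

/-- For all `n` and all `m ≥ 1` some hyperbolic polynomial of degree `2m` in `n+1` variables with
rational coefficients, with all nonzero zeros in its cone smooth, has only semidefinite lifts of
size `r` with `multichoose n (2m) ≤ ((r+1)² + n + 2) (r+1)²`; in `2m+2` variables this forces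
`2^m ≤ 4 (r+1)²`. -/
theorem result :
    (∀ n m : ℕ, 1 ≤ m → ∃ q : MvPolynomial (Fin (n + 1)) ℚ,
      (MvPolynomial.map (algebraMap ℚ ℝ) q).IsHomogeneous (2 * m) ∧
      IsHyperbolicPoly (MvPolynomial.map (algebraMap ℚ ℝ) q) (Pi.single 0 1) ∧
      (∀ x ∈ hyperbolicityCone (MvPolynomial.map (algebraMap ℚ ℝ) q) (Pi.single 0 1),
        MvPolynomial.eval x (MvPolynomial.map (algebraMap ℚ ℝ) q) = 0 → x ≠ 0 →
        ∃ i, MvPolynomial.eval x
          (MvPolynomial.pderiv i (MvPolynomial.map (algebraMap ℚ ℝ) q)) ≠ 0) ∧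
      ∀ (a r : ℕ) (A₀ : Matrix (Fin r) (Fin r) ℝ) (A : Fin (n + 1) → Matrix (Fin r) (Fin r) ℝ)
        (B : Fin a → Matrix (Fin r) (Fin r) ℝ),
        A₀.IsSymm → (∀ i, (A i).IsSymm) → (∀ j, (B j).IsSymm) →
        hyperbolicityCone (MvPolynomial.map (algebraMap ℚ ℝ) q) (Pi.single 0 1) =
          {x | ∃ u : Fin a → ℝ, (A₀ + ∑ i, x i • A i + ∑ j, u j • B j).PosSemidef} →
        Nat.multichoose n (2 * m) ≤ ((r + 1) * (r + 1) + n + 2) * ((r + 1) * (r + 1))) ∧
    (∀ m : ℕ, 1 ≤ m → ∃ q : MvPolynomial (Fin (2 * m + 1 + 1)) ℚ,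
      (MvPolynomial.map (algebraMap ℚ ℝ) q).IsHomogeneous (2 * m) ∧
      IsHyperbolicPoly (MvPolynomial.map (algebraMap ℚ ℝ) q) (Pi.single 0 1) ∧
      (∀ x ∈ hyperbolicityCone (MvPolynomial.map (algebraMap ℚ ℝ) q) (Pi.single 0 1),
        MvPolynomial.eval x (MvPolynomial.map (algebraMap ℚ ℝ) q) = 0 → x ≠ 0 →
        ∃ i, MvPolynomial.eval x
          (MvPolynomial.pderiv i (MvPolynomial.map (algebraMap ℚ ℝ) q)) ≠ 0) ∧
      ∀ (a r : ℕ) (A₀ : Matrix (Fin r) (Fin r) ℝ)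
        (A : Fin (2 * m + 1 + 1) → Matrix (Fin r) (Fin r) ℝ)
        (B : Fin a → Matrix (Fin r) (Fin r) ℝ),
        A₀.IsSymm → (∀ i, (A i).IsSymm) → (∀ j, (B j).IsSymm) →
        hyperbolicityCone (MvPolynomial.map (algebraMap ℚ ℝ) q) (Pi.single 0 1) =
          {x | ∃ u : Fin a → ℝ, (A₀ + ∑ i, x i • A i + ∑ j, u j • B j).PosSemidef} →
        2 ^ m ≤ 4 * ((r + 1) * (r + 1))) := by
  have main : ∀ n m : ℕ, 1 ≤ m → ∃ q : MvPolynomial (Fin (n + 1)) ℚ,
      (MvPolynomial.map (algebraMap ℚ ℝ) q).IsHomogeneous (2 * m) ∧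
      IsHyperbolicPoly (MvPolynomial.map (algebraMap ℚ ℝ) q) (Pi.single 0 1) ∧
      (∀ x ∈ hyperbolicityCone (MvPolynomial.map (algebraMap ℚ ℝ) q) (Pi.single 0 1),
        MvPolynomial.eval x (MvPolynomial.map (algebraMap ℚ ℝ) q) = 0 → x ≠ 0 →
        ∃ i, MvPolynomial.eval x
          (MvPolynomial.pderiv i (MvPolynomial.map (algebraMap ℚ ℝ) q)) ≠ 0) ∧
      ∀ (a r : ℕ) (A₀ : Matrix (Fin r) (Fin r) ℝ) (A : Fin (n + 1) → Matrix (Fin r) (Fin r) ℝ)
        (B : Fin a → Matrix (Fin r) (Fin r) ℝ),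
        A₀.IsSymm → (∀ i, (A i).IsSymm) → (∀ j, (B j).IsSymm) →
        hyperbolicityCone (MvPolynomial.map (algebraMap ℚ ℝ) q) (Pi.single 0 1) =
          {x | ∃ u : Fin a → ℝ, (A₀ + ∑ i, x i • A i + ∑ j, u j • B j).PosSemidef} →
        Nat.multichoose n (2 * m) ≤ ((r + 1) * (r + 1) + n + 2) * ((r + 1) * (r + 1)) := by
    intro n m hm
    obtain ⟨q, hq, h⟩ := rational_lift_size_bound n m hm
    have hE := smallForm_formOf _ hq
    refine ⟨familyQ m (formQ q), ?_⟩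
    rw [map_familyQ]
    exact ⟨familyPoly_isHomogeneous hE, isHyperbolicPoly_family hE hm,
      fun x hx hp hx0 => smooth_boundary hE hm x hx hp hx0, h⟩
  refine ⟨main, fun m hm => ?_⟩
  obtain ⟨q, h1, h2, h3, h⟩ := main (2 * m + 1) m hm
  refine ⟨q, h1, h2, h3, fun a r A₀ A B h₀ hA hB hK => ?_⟩
  have hb := h a r A₀ A B h₀ hA hB hK
  have hmc : Nat.multichoose (2 * m + 1) (2 * m) = Nat.centralBinom (2 * m) := by
    rw [Nat.multichoose_eq, Nat.centralBinom_eq_two_mul_choose]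
    congr 1
    omega
  rw [hmc] at hb
  have hcb := (two_pow_le_centralBinom (2 * m)).trans hb
  rw [show (2 : ℕ) ^ (2 * m) = 2 ^ m * 2 ^ m by rw [two_mul, pow_add]] at hcb
  have hlin : m + 1 ≤ 2 ^ m := Nat.lt_two_pow_self
  by_contra hlt
  push Not at hlt
  nlinarith

end Vale.Agent.Results.P256.SmoothConeLiftLowerBound
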